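import Vale.Agent.N338X.CNet
import Vale.Agent.N338.End
import Vale.Agent.P338Z.Gen.Crec
import Vale.Agent.P338Z.Gen.Hg

/-!
A multitape Turing machine that multiplies in time `O(n (log n) ^ (1 - 2 ^ (-31)))`.
-/

open Vale.Agent.P338.R2.H898

namespace Vale.Agent.Results.P338.A0SharedWires

open Vale.Agent.P338Z Vale.Agent.N338 in
theorem result : ∃ A : MTM, Multiplies A ∧ ∃ C : ℝ, 0 < C ∧ ∀ n : ℕ, 2 ≤ n →
    (mulTime A n : ℝ) ≤ C * (n * Real.log n ^ (1 - 1 / 2 ^ 31 : ℝ)) := by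
  obtain ⟨ν, lam, lc, hv, hm, hl⟩ := N338X.nets47
  have h := hv.ok
  have hF : FH2 (sm ν) :=
    fh_sm nai (hg_of lay pad (hmid_of (crec_of sq gate frm (xor_ok h) h) h) h) h
  have hP : FPT (sm ν) := fpt_sm (cpt_of tree_pt (xpt_of (upt_of tree_pt h) h) h) h
  exact topE (e := 1411072 / 10 ^ 15) (κ := 1 / 2 ^ 31) (by norm_num)
    (by norm_num) (by norm_num) (by norm_num) core pcost ppt
    (genE_of hF hP (fcost_sm lay hv hm (by norm_num) hl (by norm_num) (by norm_num)))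

end Vale.Agent.Results.P338.A0SharedWires
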